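import Vale.Agent.Lib.P113.Main
import Vale.Agent.Lib.P113.EffectA

/-!
Halting detection by particle paths of forced Navier-Stokes flows on the torus from rest: for every
computable viscosity `ν > 0` the answer to the question is yes.
-/

namespace Vale.Agent.Results.P113.A_main

open Vale.Agent.Lib.P113

/-- For every computable `ν > 0` there are a point `a`, an open set `O` of the torus, a time `T₀` and
a force compiler such that for every machine `M` and input `w`, the force is smooth and effective,
periodic in time and independent of `w` on `t ≥ T₀`, the system from rest has a global smooth solution,
unique among classical solutions on each `[0,T]`, and its unique path from `a` meets `O` at some time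
`t ≥ 0` if and only if `M` halts on `w`. -/
theorem result (ν : ℝ) (hν : 0 < ν) (hc : IsComputableReal ν) : HaltingDetection ν :=
  halting_detection_of_effective ν hν (force_effective hc)

end Vale.Agent.Results.P113.A_main
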